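import Mathlib
import Vale.Agent.P308.Core

namespace Vale.Agent.Results.P308.BoundedIndep

/-- In a finite graph with independence number at most `a` that has a perfect matching, the number
of near-perfect matchings (matchings missing exactly two vertices) is at most `|V| ^ (3 a)` times
the number of perfect matchings. -/
theorem result {V : Type*} [Fintype V] (G : SimpleGraph V) (a : ℕ) (hα : G.indepNum ≤ a)
    (hpm : ∃ M : G.Subgraph, M.IsPerfectMatching) :
    {M : G.Subgraph | M.IsMatching ∧ (M.vertsᶜ).ncard = 2}.ncard ≤
      (Fintype.card V) ^ (3 * a) * {M : G.Subgraph | M.IsPerfectMatching}.ncard := by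
  classical
  exact Vale.Agent.P308.ratio_bound a hα hpm

end Vale.Agent.Results.P308.BoundedIndep
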