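import Mathlib
import Vale.Agent.Results.P308.BoundedIndep

namespace Vale.Agent.Results.P308.C_PolynomialRatio

/-- For every `a` there is an exponent `k` such that in every finite graph with independence number
at most `a` that has a perfect matching, the number of near-perfect matchings (matchings missing
exactly two vertices) is at most `|V| ^ k` times the number of perfect matchings. -/
theorem result (a : ℕ) : ∃ k : ℕ, ∀ (V : Type) [Fintype V] (G : SimpleGraph V),
    G.indepNum ≤ a → (∃ M : G.Subgraph, M.IsPerfectMatching) →
    {M : G.Subgraph | M.IsMatching ∧ (M.vertsᶜ).ncard = 2}.ncard ≤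
      (Fintype.card V) ^ k * {M : G.Subgraph | M.IsPerfectMatching}.ncard :=
  ⟨3 * a, fun _ _ G hα hpm => Vale.Agent.Results.P308.BoundedIndep.result G a hα hpm⟩

end Vale.Agent.Results.P308.C_PolynomialRatio
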